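import Vale.Agent.Lib.P012_helper15.Defs

/-!
# P012, task T4: covering by subset products

Character orthogonality over a product of prime moduli: if the nontrivial characters supported on
the block `B` have small products over the pool `R`, every system of nonzero residues modulo the
block primes is attained by a subset product of the pool.
-/

namespace Vale.Agent.Lib.P012
open Finset
set_option linter.unusedSectionVars false
variable {ι : Type} [Fintype ι] [DecidableEq ι]

/-- the local choice sets describing the systems supported in `B`. -/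
noncomputable def tset (p : ι → ℕ) (B : Finset ι) (a : ι) : Finset (DirichletCharacter ℂ (p a)) :=
  if a ∈ B then univ else {1}

theorem mem_piFinset_tset (p : ι → ℕ) (B : Finset ι) (χ : Sys p) :
    χ ∈ Fintype.piFinset (tset p B) ↔ supp χ ⊆ B := by
  classical
  simp only [Fintype.mem_piFinset]
  constructor
  · intro h a ha
    by_contra haB
    have h1 := h a
    simp only [tset, haB, if_false, mem_singleton] at h1
    simp [supp, h1] at ha
  · intro h a
    by_cases ha : a ∈ B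
    · simp [tset, ha]
    · simp only [tset, ha, if_false, mem_singleton]
      by_contra hne
      exact ha (h (by simp [supp, hne]))

omit [Fintype ι] [DecidableEq ι] in
theorem isUnit_cast_prime (p : ι → ℕ) (hp : ∀ a, (p a).Prime) (hinj : Function.Injective p)
    {r b : ι} (hrb : r ≠ b) : IsUnit ((p r : ℕ) : ZMod (p b)) :=
  (ZMod.isUnit_iff_coprime _ _).2 ((Nat.coprime_primes (hp r) (hp b)).2 (fun h => hrb (hinj h)))

theorem ev_eq_prod (p : ι → ℕ) (hp : ∀ a, (p a).Prime) (hinj : Function.Injective p)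
    (B : Finset ι) (χ : Sys p) (hχ : supp χ ⊆ B) (r : ι) (hr : r ∉ B) :
    ev χ (p r) = ∏ b ∈ B, χ b ((p r : ℕ) : ZMod (p b)) := by
  classical
  unfold ev
  rw [← Finset.prod_subset (subset_univ B)]
  · apply prod_congr rfl
    intro b hb
    unfold loc
    split_ifs with h
    · rw [h]
      have hu : IsUnit ((p r : ℕ) : ZMod (p b)) :=
        isUnit_cast_prime p hp hinj (fun h => hr (h ▸ hb))
      exact (MulChar.one_apply hu).symm
    · rfl
  · intro a _ ha
    have h1 : χ a = 1 := by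
      by_contra h
      exact ha (hχ (by simp [supp, h]))
    simp [loc, h1]

theorem card_tset_le (p : ι → ℕ) (hp : ∀ a, (p a).Prime) (X : ℕ) (hX : ∀ a, p a ≤ X)
    (B : Finset ι) : (Fintype.piFinset (tset p B)).card ≤ X ^ B.card := by
  classical
  rw [Fintype.card_piFinset]
  have h1 : ∀ a, (tset p B a).card ≤ if a ∈ B then X else 1 := by
    intro a
    by_cases ha : a ∈ B
    · simp only [tset, ha, if_true]
      have : NeZero (p a) := ⟨(hp a).ne_zero⟩
      rw [card_univ, ← Nat.card_eq_fintype_card,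
        DirichletCharacter.card_eq_totient_of_hasEnoughRootsOfUnity]
      exact (Nat.totient_le _).trans (hX a)
    · simp [tset, ha]
  calc ∏ a, (tset p B a).card ≤ ∏ a, (if a ∈ B then X else 1) :=
        Finset.prod_le_prod' (fun a _ => h1 a)
    _ = X ^ B.card := by
        rw [Finset.prod_ite_mem]
        simp

/-- the unimodular coefficient attached to the target residues. -/
noncomputable def coef (p : ι → ℕ) (B : Finset ι) (u : ι → ℕ) (χ : Sys p) : ℂ :=
  ∏ b ∈ B, χ b ((u b : ZMod (p b))⁻¹)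

theorem norm_coef_le (p : ι → ℕ) (B : Finset ι) (u : ι → ℕ) (χ : Sys p) :
    ‖coef p B u χ‖ ≤ 1 := by
  unfold coef
  rw [norm_prod]
  exact Finset.prod_le_one (fun _ _ => norm_nonneg _) (fun b _ => DirichletCharacter.norm_le_one _ _)

/-- expansion of the product of the local orthogonality sums. -/
theorem prod_sum_eq (p : ι → ℕ) (B : Finset ι) (u : ι → ℕ) (x : ℕ) :
    ∏ b ∈ B, ∑ ψ : DirichletCharacter ℂ (p b), ψ ((u b : ZMod (p b))⁻¹) * ψ (x : ZMod (p b)) =
      ∑ χ ∈ Fintype.piFinset (tset p B), coef p B u χ * ∏ b ∈ B, χ b (x : ZMod (p b)) := by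
  classical
  have h := Finset.prod_univ_sum (tset p B)
    (fun a (ψ : DirichletCharacter ℂ (p a)) =>
      if a ∈ B then ψ ((u a : ZMod (p a))⁻¹) * ψ (x : ZMod (p a)) else 1)
  have hl : ∏ a, ∑ ψ ∈ tset p B a,
      (if a ∈ B then ψ ((u a : ZMod (p a))⁻¹) * ψ (x : ZMod (p a)) else 1) =
      ∏ b ∈ B, ∑ ψ : DirichletCharacter ℂ (p b),
        ψ ((u b : ZMod (p b))⁻¹) * ψ (x : ZMod (p b)) := by
    rw [← Finset.prod_subset (subset_univ B)]
    · apply prod_congr rfl
      intro b hb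
      simp [tset, hb]
    · intro a _ ha
      simp [tset, ha]
  rw [← hl, h]
  apply sum_congr rfl
  intro χ _
  rw [← Finset.prod_subset (subset_univ B)]
  · unfold coef
    rw [← Finset.prod_mul_distrib]
    apply prod_congr rfl
    intro b hb
    simp [hb]
  · intro a _ ha
    simp [ha]

/-- the counting identity. -/
theorem count_identity (p : ι → ℕ) (hp : ∀ a, (p a).Prime) (hinj : Function.Injective p)
    (B R : Finset ι) (hBR : Disjoint B R) (u : ι → ℕ) (hu : ∀ b ∈ B, ¬ p b ∣ u b) :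
    ∑ S ∈ R.powerset, ∏ b ∈ B,
      (if (u b : ZMod (p b)) = ((∏ a ∈ S, p a : ℕ) : ZMod (p b))
        then ((p b).totient : ℂ) else 0) =
      ∑ χ ∈ Fintype.piFinset (tset p B), coef p B u χ * ∏ r ∈ R, (1 + ev χ (p r)) := by
  classical
  have h1 : ∀ S ∈ R.powerset, ∏ b ∈ B,
      (if (u b : ZMod (p b)) = ((∏ a ∈ S, p a : ℕ) : ZMod (p b))
        then ((p b).totient : ℂ) else 0) =
      ∑ χ ∈ Fintype.piFinset (tset p B), coef p B u χ * ∏ r ∈ S, ev χ (p r) := by
    intro S hS
    rw [mem_powerset] at hS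
    have h2 : ∏ b ∈ B,
      (if (u b : ZMod (p b)) = ((∏ a ∈ S, p a : ℕ) : ZMod (p b))
        then ((p b).totient : ℂ) else 0) = ∏ b ∈ B, ∑ ψ : DirichletCharacter ℂ (p b),
          ψ ((u b : ZMod (p b))⁻¹) * ψ ((∏ a ∈ S, p a : ℕ) : ZMod (p b)) := by
      apply prod_congr rfl
      intro b hb
      have : NeZero (p b) := ⟨(hp b).ne_zero⟩
      have hub : IsUnit (u b : ZMod (p b)) :=
        (ZMod.isUnit_iff_coprime _ _).2
          (Nat.Coprime.symm ((Nat.Prime.coprime_iff_not_dvd (hp b)).2 (hu b hb)))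
      rw [DirichletCharacter.sum_char_inv_mul_char_eq ℂ hub]
    rw [h2, prod_sum_eq]
    apply sum_congr rfl
    intro χ hχ
    rw [mem_piFinset_tset] at hχ
    congr 1
    have h3 : ∀ r ∈ S, ev χ (p r) = ∏ b ∈ B, χ b ((p r : ℕ) : ZMod (p b)) := by
      intro r hr
      exact ev_eq_prod p hp hinj B χ hχ r (fun hrB => (Finset.disjoint_left.1 hBR hrB) (hS hr))
    rw [Finset.prod_congr rfl h3, Finset.prod_comm]
    apply prod_congr rfl
    intro b _
    rw [Nat.cast_prod, map_prod]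
  rw [Finset.sum_congr rfl h1, Finset.sum_comm]
  apply sum_congr rfl
  intro χ _
  rw [← Finset.mul_sum, Finset.prod_one_add]

theorem ev_one_sys (p : ι → ℕ) (n : ℕ) : ev (1 : Sys p) n = 1 := by
  simp [ev, loc]

theorem coef_one_sys (p : ι → ℕ) (hp : ∀ a, (p a).Prime) (B : Finset ι) (u : ι → ℕ)
    (hu : ∀ b ∈ B, ¬ p b ∣ u b) : coef p B u (1 : Sys p) = 1 := by
  unfold coef
  apply Finset.prod_eq_one
  intro b hb
  have hub : IsUnit (u b : ZMod (p b)) :=
    (ZMod.isUnit_iff_coprime _ _).2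
      (Nat.Coprime.symm ((Nat.Prime.coprime_iff_not_dvd (hp b)).2 (hu b hb)))
  have hub' : IsUnit ((u b : ZMod (p b))⁻¹) := by
    have : NeZero (p b) := ⟨(hp b).ne_zero⟩
    have h1 : (u b : ZMod (p b)) * (u b : ZMod (p b))⁻¹ = 1 := ZMod.mul_inv_of_unit _ hub
    exact IsUnit.of_mul_eq_one _ (by rw [mul_comm]; exact h1)
  exact MulChar.one_apply hub'

open Classical in
theorem covering (p : ι → ℕ) (hp : ∀ a, (p a).Prime) (hinj : Function.Injective p)
    (X : ℕ) (hX : ∀ a, p a ≤ X) (B R : Finset ι) (hBR : Disjoint B R)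
    (hsmall : (X : ℝ) ^ B.card *
      ∑ χ ∈ (univ : Finset (Sys p)).filter (fun χ => χ ≠ 1 ∧ supp χ ⊆ B),
        ∏ a ∈ R, (‖1 + ev χ (p a)‖ ^ 2 / 4) < 1)
    (u : ι → ℕ) (hu : ∀ b ∈ B, ¬ p b ∣ u b) :
    ∃ S ⊆ R, ∀ b ∈ B, (∏ a ∈ S, p a) ≡ u b [MOD p b] := by
  by_contra hcon
  push Not at hcon
  set T := Fintype.piFinset (tset p B) with hT
  set T' := (univ : Finset (Sys p)).filter (fun χ => χ ≠ 1 ∧ supp χ ⊆ B) with hT'
  have hTT' : T = insert 1 T' := by
    ext χ
    rw [hT, mem_piFinset_tset, hT', mem_insert, mem_filter]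
    constructor
    · intro h
      by_cases h1 : χ = 1
      · exact Or.inl h1
      · exact Or.inr ⟨mem_univ _, h1, h⟩
    · rintro (h | h)
      · rw [h]
        intro a ha
        simp [supp] at ha
      · exact h.2.2
  have h1T' : (1 : Sys p) ∉ T' := by
    rw [hT', mem_filter]
    exact fun h => h.2.1 rfl
  have hid := count_identity p hp hinj B R hBR u hu
  have hzero : ∑ S ∈ R.powerset, ∏ b ∈ B,
      (if (u b : ZMod (p b)) = ((∏ a ∈ S, p a : ℕ) : ZMod (p b))
        then ((p b).totient : ℂ) else 0) = 0 := by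
    apply Finset.sum_eq_zero
    intro S hS
    rw [mem_powerset] at hS
    obtain ⟨b, hb, hne⟩ := hcon S hS
    apply Finset.prod_eq_zero hb
    rw [if_neg]
    intro heq
    exact hne ((ZMod.natCast_eq_natCast_iff _ _ _).1 heq.symm)
  rw [hzero, ← hT, hTT', Finset.sum_insert h1T', coef_one_sys p hp B u hu] at hid
  simp only [ev_one_sys, one_mul] at hid
  -- the weights
  set y : Sys p → ℝ := fun χ => ∏ r ∈ R, (‖1 + ev χ (p r)‖ / 2) with hy
  have hy0 : ∀ χ, 0 ≤ y χ := fun χ => Finset.prod_nonneg (fun r _ => by positivity)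
  have hysq : ∀ χ, y χ ^ 2 = ∏ a ∈ R, (‖1 + ev χ (p a)‖ ^ 2 / 4) := by
    intro χ
    rw [hy]
    simp only
    rw [← Finset.prod_pow]
    apply prod_congr rfl
    intro r _
    ring
  have hprod : ∀ χ, ∏ r ∈ R, ‖1 + ev χ (p r)‖ = 2 ^ R.card * y χ := by
    intro χ
    rw [hy]
    simp only
    rw [← Finset.prod_const, ← Finset.prod_mul_distrib]
    apply prod_congr rfl
    intro r _
    ring
  have hcard : (T'.card : ℝ) ≤ (X : ℝ) ^ B.card := by
    have h1 : T'.card ≤ T.card := by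
      rw [hTT']
      exact Finset.card_le_card (Finset.subset_insert _ _)
    have h2 := card_tset_le p hp X hX B
    exact_mod_cast h1.trans h2
  have hsum_sq : (∑ χ ∈ T', y χ) ^ 2 < 1 := by
    calc (∑ χ ∈ T', y χ) ^ 2 ≤ T'.card * ∑ χ ∈ T', y χ ^ 2 := sq_sum_le_card_mul_sum_sq
      _ ≤ (X : ℝ) ^ B.card * ∑ χ ∈ T', y χ ^ 2 :=
          mul_le_mul_of_nonneg_right hcard (Finset.sum_nonneg (fun χ _ => sq_nonneg _))
      _ = (X : ℝ) ^ B.card * ∑ χ ∈ T', ∏ a ∈ R, (‖1 + ev χ (p a)‖ ^ 2 / 4) := by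
          rw [Finset.sum_congr rfl (fun χ _ => hysq χ)]
      _ < 1 := hsmall
  have hsum_lt : ∑ χ ∈ T', y χ < 1 := by
    have h0 : 0 ≤ ∑ χ ∈ T', y χ := Finset.sum_nonneg (fun χ _ => hy0 χ)
    nlinarith
  have hbound : ‖∑ χ ∈ T', coef p B u χ * ∏ r ∈ R, (1 + ev χ (p r))‖
      ≤ 2 ^ R.card * ∑ χ ∈ T', y χ := by
    calc ‖∑ χ ∈ T', coef p B u χ * ∏ r ∈ R, (1 + ev χ (p r))‖
        ≤ ∑ χ ∈ T', ‖coef p B u χ * ∏ r ∈ R, (1 + ev χ (p r))‖ := norm_sum_le _ _
      _ ≤ ∑ χ ∈ T', 2 ^ R.card * y χ := by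
          apply Finset.sum_le_sum
          intro χ _
          rw [norm_mul, norm_prod, hprod]
          have h1 := norm_coef_le p B u χ
          have h2 : 0 ≤ 2 ^ R.card * y χ := mul_nonneg (by positivity) (hy0 χ)
          nlinarith [norm_nonneg (coef p B u χ)]
      _ = 2 ^ R.card * ∑ χ ∈ T', y χ := by rw [Finset.mul_sum]
  have hmain : (∑ χ ∈ T', coef p B u χ * ∏ r ∈ R, (1 + ev χ (p r))) = -(2 : ℂ) ^ R.card := by
    have h2 : ∏ r ∈ R, ((1 : ℂ) + 1) = 2 ^ R.card := by
      rw [Finset.prod_const]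
      norm_num
    rw [h2] at hid
    linear_combination -hid
  rw [hmain, norm_neg, norm_pow] at hbound
  have h2 : ‖(2 : ℂ)‖ = 2 := by simp
  rw [h2] at hbound
  have hpos : (0 : ℝ) < 2 ^ R.card := by positivity
  nlinarith

end Vale.Agent.Lib.P012
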